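import Vale.Agent.P220Z.Wc.Plan

/-!
# The signed number of words modulo five
-/

namespace Vale.Agent.P220Z.Wc

/-- the number of letters `true` modulo five -/
def ct {i : ℕ} (om : Fin i → Bool) : ZMod 5 := ∑ n, if om n then 1 else 0

/-- the signed number of words -/
def wA (i : ℕ) (j : ZMod 5) : ZMod 5 :=
  ∑ om : Fin i → Bool, if ct om = j then ((∏ n, sl (om n) : ℤ) : ZMod 5) else 0

/-- the signed number of words with the first letter `true` -/
def wB (i : ℕ) (j : ZMod 5) : ZMod 5 :=
  ∑ om : Fin (i + 1) → Bool,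
    if om 0 = true ∧ ct om = j then ((∏ n, sl (om n) : ℤ) : ZMod 5) else 0

/-- the recursion -/
def rA : ℕ → ZMod 5 → ZMod 5
  | 0, j => if j = 0 then 1 else 0
  | i + 1, j => rA i (j - 1) - rA i j

theorem sum_cons {i : ℕ} (f : (Fin (i + 1) → Bool) → ZMod 5) :
    ∑ om, f om = ∑ om : Fin i → Bool, f (Fin.cons true om) +
      ∑ om : Fin i → Bool, f (Fin.cons false om) := by
  rw [← (Fin.consEquiv fun _ : Fin (i + 1) => Bool).sum_comp, Fintype.sum_prod_type,
    Fintype.sum_bool]
  rfl

theorem ct_true {i : ℕ} (om : Fin i → Bool) (j : ZMod 5) :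
    ct (Fin.cons true om : Fin (i + 1) → Bool) = j ↔ ct om = j - 1 := by
  rw [ct, Fin.sum_univ_succ, eq_sub_iff_add_eq']
  rfl

theorem ct_false {i : ℕ} (om : Fin i → Bool) :
    ct (Fin.cons false om : Fin (i + 1) → Bool) = ct om := by
  rw [ct, Fin.sum_univ_succ]
  exact zero_add _

theorem wA_eq (i : ℕ) (j : ZMod 5) : wA i j = rA i j := by
  induction i generalizing j with
  | zero =>
    revert j
    decide
  | succ i ih =>
    rw [rA, ← ih, ← ih, wA, sum_cons, wA, wA, sub_eq_add_neg (∑ _, _), ← Finset.sum_neg_distrib]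
    refine congrArg₂ _ (Finset.sum_congr rfl fun om _ => ?_) (Finset.sum_congr rfl fun om _ => ?_)
    · simp only [ct_true, Fin.prod_univ_succ]
      simp [sl]
    · simp only [ct_false, Fin.prod_univ_succ]
      split_ifs <;> simp [sl]

theorem wB_eq (i : ℕ) (j : ZMod 5) : wB i j = rA i (j - 1) := by
  rw [← wA_eq, wB, sum_cons, wA]
  simp only [ct_true, Fin.prod_univ_succ]
  simp [sl]

theorem rA_zero (i : ℕ) (j : ZMod 5) : rA (i + 5) j = 0 := by
  induction i generalizing j with
  | zero => revert j; decide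
  | succ i ih => rw [Nat.add_right_comm, rA, ih, ih, sub_zero]

/-- the values `1, 3, 4, 2` at `j = 1, 2, 3, 4` -/
def cW (j : ZMod 5) : ZMod 5 := 3 ^ (j - 1).val

/-- The sum over the lengths `1, …, K`. -/
theorem sum_wB {K : ℕ} (hK : 5 ≤ K) (j : ZMod 5) : ∑ i ∈ Finset.range K, wB i j = cW j := by
  induction K, hK using Nat.le_induction with
  | base =>
    simp only [wB_eq]
    revert j
    decide
  | succ K hK ih =>
    obtain ⟨n, rfl⟩ := Nat.exists_eq_add_of_le' hK
    rw [Finset.sum_range_succ, ih, wB_eq, rA_zero, add_zero]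

theorem sum_cW : ∑ j : ZMod 5, j ^ 2 * cW j = 1 := by decide

end Vale.Agent.P220Z.Wc
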