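import Vale.Agent.P220Z.Hs.Fac
import Vale.Agent.P220Z.Wc.Sum

/-!
# P220, horseshoe model: the maps in the window of the twist
-/

open Set

namespace Vale.Agent.P220Z.Hs.Win

open Vale.Agent.P220Z.Def Vale.Agent.P220Z.Hs.Fc

/-- the full planar map -/
noncomputable def PP : ℝ × ℝ → ℝ × ℝ := fb 0 0 20

/-- the centres of the two strips -/
noncomputable def cc (l : Bool) : ℝ := if l then -1 / 2 else 1 / 2

/-- the two boxes -/
def BB (l : Bool) : Set (ℝ × ℝ) :=
  {p | |p.1 - cc l| < 1 / 5 ∧ |p.2 + tent p.1| < 8 ∧ |p.1 + 100 * (p.2 + tent p.1)| < 8}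

theorem tent_cont : Continuous tent := by
  have h : Continuous (st (-1 / 4) (1 / 4)) :=
    Real.smoothTransition.continuous.comp (by fun_prop)
  unfold tent
  fun_prop

theorem isOpen_BB (l : Bool) : IsOpen (BB l) := by
  have h := tent_cont
  have h1 : Continuous fun p : ℝ × ℝ => |p.1 - cc l| := by fun_prop
  have h2 : Continuous fun p : ℝ × ℝ => |p.2 + tent p.1| := by fun_prop
  have h3 : Continuous fun p : ℝ × ℝ => |p.1 + 100 * (p.2 + tent p.1)| := by fun_prop
  exact (isOpen_lt h1 continuous_const).inter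
    ((isOpen_lt h2 continuous_const).inter (isOpen_lt h3 continuous_const))

theorem abs_cc (l : Bool) : |cc l| ≤ 1 / 2 := by
  cases l <;> norm_num [cc, abs_le]

theorem clp_of {y z : ℝ} (h : |z| ≤ 8) : clp y z = z := by
  have h8 : (8 : ℝ) ≤ max 8 |y| := le_max_left _ _
  obtain ⟨h1, h2⟩ := abs_le.1 h
  rw [clp, min_eq_right (by linarith), max_eq_right (by linarith)]

/-- the tent is affine on the two strips -/
theorem tent_eq {l : Bool} {x : ℝ} (h : |x - cc l| ≤ 1 / 4) :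
    tent x = Wc.sl l * 100 * (x - cc l) := by
  obtain ⟨h1, h2⟩ := abs_le.1 h
  cases l
  · simp only [cc, Bool.false_eq_true, if_false] at h1 h2 ⊢
    rw [tent_far (le_abs.2 (Or.inl (by linarith))), abs_of_nonneg (by linarith)]
    simp only [Wc.sl, Bool.false_eq_true, if_false]
    push_cast
    ring
  · simp only [cc, if_true] at h1 h2 ⊢
    rw [tent_far (le_abs.2 (Or.inr (by linarith))), abs_of_nonpos (by linarith)]
    simp only [Wc.sl, if_true]
    push_cast
    ring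

theorem ch1_eq {l : Bool} {x : ℝ} (h : |x - cc l| ≤ 1 / 4) : ch1 x = if l then 1 else 0 := by
  obtain ⟨h1, h2⟩ := abs_le.1 h
  cases l
  · simp only [cc, Bool.false_eq_true, if_false] at h1 h2 ⊢
    rw [ch1, st_one (a := -1 / 4) (by norm_num) (by linarith), sub_self, mul_zero]
  · simp only [cc, if_true] at h1 h2 ⊢
    rw [ch1, st_one (by norm_num) (by linarith), st_zero (by norm_num) (by linarith)]
    norm_num

theorem ch1_one {x : ℝ} (h : |x + 1 / 2| ≤ 1 / 4) : ch1 x = 1 :=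
  ch1_eq (l := true) (by rwa [cc, if_pos rfl, neg_div, sub_neg_eq_add])

theorem fb_full {t t' : ℝ} (h : t ≤ 7) (h' : 19 ≤ t') (p : ℝ × ℝ) : fb 0 t t' p = PP p := by
  simp only [PP, fb, aA_one h, aA_zero (t := t') (by linarith), aB_one (t := t) (by linarith),
    aB_zero h', aA_one (t := 0) (by norm_num), aA_zero (t := 20) (by norm_num),
    aB_one (t := 0) (by norm_num), aB_zero (t := 20) (by norm_num)]

theorem fb_id {t t' : ℝ} (h : t ≤ 7) (h' : t' ≤ 7) (p : ℝ × ℝ) : fb 0 t t' p = p := by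
  simp only [fb, aA_one h, aA_one h', aB_one (t := t) (by linarith),
    aB_one (t := t') (by linarith), sub_self, zero_mul, add_zero, clp_self]

theorem PP_apply (p : ℝ × ℝ) : PP p =
    (clp p.1 (p.1 + 100 * clp p.2 (p.2 + tent p.1)), clp p.2 (p.2 + tent p.1)) := by
  simp only [PP, fb, aA_one (t := 0) (by norm_num), aA_zero (t := 20) (by norm_num),
    aB_one (t := 0) (by norm_num), aB_zero (t := 20) (by norm_num), sub_zero, one_mul]

theorem PP_eq : ∀ l, ∀ p ∈ BB l, PP p = Wc.stepA 1 1 100 100 cc l p := by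
  rintro l p ⟨h1, h2, h3⟩
  rw [PP_apply, clp_of h2.le, clp_of h3.le, tent_eq (l := l) (by linarith), Wc.stepA]
  simp only [one_mul]

theorem BB_in (l : Bool) (p : ℝ × ℝ) (h1 : |p.1 - cc l| ≤ 6 * (1 / 2) / (100 * 100))
    (h2 : |p.2| ≤ 3 * (1 / 2) / 100) : p ∈ BB l := by
  have h3 : |tent p.1| ≤ 3 / 100 := by
    rw [tent_eq (l := l) (by linarith), abs_mul, abs_mul, Wc.abs_sl, abs_of_pos (by norm_num)]
    linarith
  obtain ⟨h4, h5⟩ := abs_le.1 h1
  obtain ⟨h6, h7⟩ := abs_le.1 h2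
  obtain ⟨h8, h9⟩ := abs_le.1 h3
  obtain ⟨h10, h11⟩ := abs_le.1 (abs_cc l)
  exact ⟨by linarith, abs_lt.2 ⟨by linarith, by linarith⟩, abs_lt.2 ⟨by linarith, by linarith⟩⟩

variable {θ σ : ℝ}

theorem evb_min (h : θ ∈ Icc (5 : ℝ) 7) (h' : θ + σ ∈ Icc (5 : ℝ) 7) (i n : ℕ) (p : ℝ × ℝ) :
    evb θ (20 * i + σ) n p = PP^[min n i] p := by
  induction n with
  | zero => simp [evb]
  | succ n ih =>
    have h0 : (0 : ℝ) ≤ n := Nat.cast_nonneg n
    rw [evb, ih]
    rcases lt_or_ge n i with hn | hn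
    · have h1 : (n : ℝ) + 1 ≤ i := by exact_mod_cast hn
      rw [fb_full (by linarith [h.2]) (by linarith [h'.1]), min_eq_left hn.le, min_eq_left hn,
        Function.iterate_succ_apply']
    · have h1 : (i : ℝ) ≤ n := by exact_mod_cast hn
      rw [fb_id (by linarith [h.2]) (by linarith [h'.2]), min_eq_right hn,
        min_eq_right (hn.trans n.le_succ)]

/-- The planar map in the window. -/
theorem evb_win (h : θ ∈ Icc (5 : ℝ) 7) (h' : θ + σ ∈ Icc (5 : ℝ) 7) {i N : ℕ} (hi : i < N)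
    (p : ℝ × ℝ) : evb θ (20 * i + σ) N p = PP^[i] p := by
  rw [evb_min h h', min_eq_right hi.le]

theorem om_one : (om 1 : ℂ) = ec (1 / 5) := by
  have h := ZMod.toCircle_natCast (N := 5) 1
  rw [Nat.cast_one] at h
  rw [om, h, ec]
  congr 1
  push_cast
  ring

theorem om_add (a b : ZMod 5) : (om (a + b) : ℂ) = om a * om b := by
  rw [om, om, om, AddChar.map_add_eq_mul, Circle.coe_mul]

theorem mm_zero (t t' x : ℝ) : mm 0 t t' x 0 = 1 + ch1 x * (ec ((eta t' - eta t) / 5) - 1) := by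
  simp [mm]

theorem eta_lo {t : ℝ} (h : t ≤ 5) : eta t = 0 := st_zero (by norm_num) h

theorem eta_hi {t : ℝ} (h : 7 ≤ t) : eta t = 1 := st_one (by norm_num) h

theorem ch1_BB {l : Bool} {p : ℝ × ℝ} (h : p ∈ BB l) : ch1 p.1 = if l then 1 else 0 :=
  ch1_eq (by linarith [h.1])

theorem evm_early (h : θ ∈ Icc (5 : ℝ) 7) (h' : θ + σ ∈ Icc (5 : ℝ) 7) {m : ℕ} {wd : ℕ → Bool}
    (h0 : wd 0 = true) {p : ℝ × ℝ} (hp : p ∈ Wc.cyl PP BB m wd) {n : ℕ} (hn : n + 1 ≤ m) :
    evm θ (20 * m + σ) (n + 1) p =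
      om (∑ k ∈ Finset.range (n + 1), if wd k then 1 else 0) * ec (-eta θ / 5) := by
  induction n with
  | zero =>
    have h1 : (1 : ℝ) ≤ m := by exact_mod_cast hn
    have h2 : ch1 p.1 = 1 := by simpa [h0] using ch1_BB (hp 0 hn)
    rw [evm, evm, evb, mm_zero, h2, eta_hi (by push_cast; linarith [h'.1]), Finset.sum_range_one,
      if_pos h0, om_one, ← ec_add, Nat.cast_zero, mul_zero, sub_zero, Complex.ofReal_one,
      one_mul, add_sub_cancel, mul_one]
    congr 1
    ring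
  | succ n ih =>
    have h1 : (n : ℝ) + 1 + 1 ≤ m := by exact_mod_cast hn
    have h2 : (0 : ℝ) ≤ n := Nat.cast_nonneg n
    rw [evm, ih (by omega), evb_min h h', min_eq_left (by omega), mm_zero,
      ch1_BB (hp (n + 1) hn), eta_hi (by push_cast; linarith [h'.1]),
      eta_lo (t := θ - _) (by push_cast; linarith [h.2]), Finset.sum_range_succ _ (n + 1), om_add,
      sub_zero, ← om_one]
    cases wd (n + 1)
    · simp [om]
    · simp only [if_true, Complex.ofReal_one]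
      ring

theorem evm_late (h : θ ∈ Icc (5 : ℝ) 7) (h' : θ + σ ∈ Icc (5 : ℝ) 7) {m : ℕ} (p : ℝ × ℝ) {n : ℕ}
    (hn : m + 1 ≤ n) : evm θ (20 * m + σ) n p = evm θ (20 * m + σ) (m + 1) p := by
  induction n, hn using Nat.le_induction with
  | base => rfl
  | succ n hn ih =>
    have h1 : (m : ℝ) + 1 ≤ n := by exact_mod_cast hn
    have h2 : (0 : ℝ) ≤ m := Nat.cast_nonneg m
    rw [evm, ih, mm_zero, eta_lo (by linarith [h'.2]), eta_lo (by linarith [h.2]), sub_self,
      zero_div, ec_zero, sub_self, mul_zero, add_zero, one_mul]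

/-- The multiplier in the window. -/
theorem evm_win (h : θ ∈ Icc (5 : ℝ) 7) (h' : θ + σ ∈ Icc (5 : ℝ) 7) {i N : ℕ} (wd : ℕ → Bool)
    (h0 : wd 0 = true) {p : ℝ × ℝ} (hp : p ∈ Wc.cyl PP BB (i + 1) wd)
    (hq : |(PP^[i + 1] p).1 + 1 / 2| < 1 / 4) (hi : i + 1 < N) :
    evm θ (20 * ((i + 1 : ℕ) : ℝ) + σ) N p =
      om (Wc.ct fun n : Fin (i + 1) => wd n) * ec ((eta (θ + σ) - eta θ) / 5) := by
  have h2 : (0 : ℝ) ≤ i := Nat.cast_nonneg i
  rw [evm_late h h' p hi, evm, evm_early h h' h0 hp le_rfl, evb_min h h', min_self, mm_zero,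
    ch1_one hq.le, eta_lo (t := θ - _) (by push_cast; linarith [h.2]), Wc.ct,
    Finset.sum_range fun k => if wd k then (1 : ZMod 5) else 0, Complex.ofReal_one, one_mul,
    add_sub_cancel, sub_zero, mul_left_comm, ← ec_add]
  congr 2
  rw [show θ + (20 * ((i + 1 : ℕ) : ℝ) + σ) - 20 * ((i + 1 : ℕ) : ℝ) = θ + σ by ring]
  ring

end Vale.Agent.P220Z.Hs.Win
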