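import Vale.Agent.P220Z.Hs.Idx

/-!
# The index of the product map on an arbitrary open set
-/

open Set Filter Topology

namespace Vale.Agent.P220Z.Wc

open Vale.Agent.P220Z.Deg Vale.Agent.P220Z.Hs Vale.Agent.P220Z.Hs.Idx

/-- the sign -/
noncomputable def sgD (_a : ℝ) : ℤ := stIdx.choose

theorem sgD_eq {a : ℝ} (_ha : a ≠ 0) : sgD a = 1 ∨ sgD a = -1 := stIdx.choose_spec.1

/-- the zeros with a positive label -/
theorem zero_char {σ r : ℝ} {w c : ℂ} (hw : w ≠ 0) (hσ : |σ| < 20) (hr : 0 < r)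
    (h1 : w - ec (σ / 20) * ((‖w‖⁻¹ : ℝ) * w) = 0) (h2 : c - ec (eta (th w + σ) / 5) = 0)
    (h3 : ec (-1 / 10) * c = r) : σ = 0 ∧ w = ec (-1 / 5) ∧ c = ec (1 / 10) := by
  rw [sub_eq_zero] at h1 h2
  have k1 : ‖w‖ = 1 := by
    rw [h1, unit_eq hw, ← ec_add, norm_ec]
  rw [k1, inv_one, Complex.ofReal_one, one_mul] at h1
  have k2 : σ / 20 = 0 := ec_eq_one (by rw [abs_lt] at hσ ⊢; constructor <;> linarith)
    (mul_right_cancel₀ hw (h1.symm.trans (one_mul w).symm))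
  have k3 : σ = 0 := by linarith
  rw [k3, add_zero] at h2
  rw [h2, ← ec_add] at h3
  have k4 : r = 1 := by
    have := congrArg norm h3
    rw [norm_ec, Complex.norm_real, Real.norm_of_nonneg hr.le] at this
    exact this.symm
  have k5 := eta_mem (th w)
  have k6 := ec_eq_one (abs_lt.2 ⟨by linarith [k5.1], by linarith [k5.2]⟩)
    (h3.trans (by rw [k4]; rfl))
  have k7 : eta (th w) = 1 / 2 := by linarith
  have k8 := unit_eq hw
  rw [k1, inv_one, Complex.ofReal_one, one_mul, eta_half k7] at k8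
  rw [k7] at h2
  exact ⟨k3, k8.trans (congrArg ec (by norm_num)), h2.trans (congrArg ec (by norm_num))⟩

theorem idx {a b : ℝ} (ha : 0 < a) {O : Set (ℝ × U1)} (hO : IsOpen O) {C : Set (ℝ × ℝ)}
    {g : ℝ × ℝ → ℝ × ℝ} (hg : Germ C g) {Φ : ℝ × U1 → U1}
    (hsub : ∀ y ∈ O, y.2.1 ∈ Complex.slitPlane ∧ |a * y.1 + b| < 20 ∧ y.2.2.1 ∈ C)
    (hin : ∀ p ∈ C, g p = 0 → (-b / a, (ec (-1 / 5), p, ec (1 / 10))) ∈ O)
    (hΦ : ∀ y ∈ O, Φ y = (y.2.1 - ec ((a * y.1 + b) / 20) * ((‖y.2.1‖⁻¹ : ℝ) * y.2.1), g y.2.2.1,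
      y.2.2.2 - ec (eta (th y.2.1 + (a * y.1 + b)) / 5))) :
    WR O Φ (fun y => ec (-1 / 10) * y.2.2.2) ∧
      wN O Φ (fun y => ec (-1 / 10) * y.2.2.2) = sgD a * pdeg C g := by
  have e0 : (fun p => p - (p - g p)) = g := funext fun p => sub_sub_cancel _ _
  obtain ⟨h1, h2⟩ := stIdx.choose_spec.2 a (-b) C (fun p => p - g p) ha (e0.symm ▸ hg)
  change _ = sgD a * _ at h2
  rw [e0] at h2
  have e1 : lab = fun y => ec (-1 / 10) * y.2.2.2 := funext fun y => mul_comm _ _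
  rw [e1] at h1 h2
  have e2 : ∀ y ∈ O, Φ y = pMap a (-b) (fun p => p - g p) y := fun y hy => by
    rw [hΦ y hy, pMap, sub_neg_eq_add, sub_sub_cancel]
  have h3 : ∀ y ∈ pDom a (-b) C, pMap a (-b) (fun p => p - g p) y = 0 → ∀ r : ℝ, 0 < r →
      ec (-1 / 10) * y.2.2.2 = r → y ∈ O ∩ pDom a (-b) C := by
    rintro ⟨t, w, p, c⟩ hy h0 r hr hl
    obtain ⟨k1, k2, k3⟩ := zero_char (σ := a * t - -b)
      (Complex.slitPlane_ne_zero (slit_of (hy.1.2.trans (by norm_num))))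
      (abs_lt.2 ⟨by linarith [hy.1.2, hy.2.1.1], by linarith [hy.1.1, hy.2.1.2]⟩) hr
      (congrArg (fun v => v.1) h0) (congrArg (fun v => v.2.2) h0) hl
    have k4 : t = -b / a := by
      field_simp
      linarith
    have k5 : p - (p - g p) = 0 := congrArg (fun v => v.2.1) h0
    refine ⟨?_, hy⟩
    rw [k4, show w = _ from k2, show c = _ from k3]
    exact hin p hy.2.2 (by rwa [sub_sub_cancel] at k5)
  have h4 : ∀ y ∈ O, Φ y = 0 → ∀ r : ℝ, 0 < r →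
      ec (-1 / 10) * y.2.2.2 = r → y ∈ O ∩ pDom a (-b) C := by
    intro y hy h0 r hr hl
    rw [hΦ y hy] at h0
    obtain ⟨k1, k2, -⟩ := zero_char (Complex.slitPlane_ne_zero (hsub y hy).1) (hsub y hy).2.1 hr
      (congrArg (fun v => v.1) h0) (congrArg (fun v => v.2.2) h0) hl
    refine ⟨hy, ?_, ?_, (hsub y hy).2.2⟩
    · rw [k2, th_w0]
      norm_num
    · rw [sub_neg_eq_add, k1, k2, th_w0]
      norm_num
  have hU := hO.inter h1.op
  have h5 := h1.mono hU inter_subset_right h3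
  have h6 : WR O Φ fun y => ec (-1 / 10) * y.2.2.2 := by
    refine ⟨hO, ContinuousOn.congr ?_ hΦ, by fun_prop, SymA.cpt_congr h5.cpt fun y =>
      ⟨fun hy => ⟨hy.1.1, (e2 y hy.1.1).trans hy.2.1, hy.2.2⟩, fun ⟨k1, k2, r, k3, k4⟩ =>
        ⟨h4 y k1 k2 r k3 k4, (e2 y k1).symm.trans k2, r, k3, k4⟩⟩⟩
    have k6 : ContinuousOn (fun y : ℝ × U1 => g y.2.2.1) O :=
      hg.cont.comp (by fun_prop) fun y hy => (hsub y hy).2.2
    have k7 : ContinuousOn (fun y : ℝ × U1 => th y.2.1) O := fun y hy =>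
      (ContinuousAt.comp (g := th) (f := fun y : ℝ × U1 => y.2.1)
        (th_deriv (hsub y hy).1).continuousAt (by fun_prop)).continuousWithinAt
    have k8 : ContinuousOn (fun y : ℝ × U1 => ‖y.2.1‖⁻¹) O :=
      ContinuousOn.inv₀ (by fun_prop) fun y hy => norm_ne_zero_iff.2
        (Complex.slitPlane_ne_zero (hsub y hy).1)
    have k9 := continuous_ec
    have k10 := continuous_eta
    refine ContinuousOn.prodMk ?_ (k6.prodMk ?_) <;> fun_prop
  refine ⟨h6, ?_⟩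
  rw [← wN_mono h6 hU inter_subset_left h4, wN_congr fun y hy => ⟨e2 y hy.1, rfl⟩,
    wN_mono h1 hU inter_subset_right h3, h2]

end Vale.Agent.P220Z.Wc
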