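import Vale.Agent.P220Z.Deg.Wind

/-!
# The index of the periodic point of a word for a piecewise affine horseshoe
-/

open Set Filter Topology

namespace Vale.Agent.P220Z.Wc

open Vale.Agent.P205.TI.Deg Vale.Agent.P220Z.Deg

/-- the sign of a letter -/
def sl (l : Bool) : ℤ := if l then 1 else -1

theorem abs_sl (l : Bool) : |(sl l : ℝ)| = 1 := by cases l <;> simp [sl]

/-- one affine step -/
def stepA (a b La ka : ℝ) (c : Bool → ℝ) (l : Bool) (p : ℝ × ℝ) : ℝ × ℝ :=
  (a * p.1 + La * (b * p.2 + sl l * ka * (p.1 - c l)), b * p.2 + sl l * ka * (p.1 - c l))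

/-- the affine orbit along a word -/
def orb (a b La ka : ℝ) (c : Bool → ℝ) (om : ℕ → Bool) : ℕ → ℝ × ℝ → ℝ × ℝ
  | 0, p => p
  | n + 1, p => stepA a b La ka c (om n) (orb a b La ka c om n p)

/-- the points whose orbit follows the word -/
def cyl (P : ℝ × ℝ → ℝ × ℝ) (B : Bool → Set (ℝ × ℝ)) (i : ℕ) (om : ℕ → Bool) : Set (ℝ × ℝ) :=
  {p | ∀ n < i, P^[n] p ∈ B (om n)}

variable {a b La ka C : ℝ} {c : Bool → ℝ} {om : ℕ → Bool} {i : ℕ}

theorem orb_bound (ha : |a| ≤ 1) (hb : |b| ≤ 1) (hL : 0 < La) (hk : 0 < ka) (h : 16 ≤ ka * La)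
    (hc : ∀ l, |c l| ≤ C) (hi : 0 < i) {p : ℝ × ℝ} (hp : orb a b La ka c om i p = p) :
    ∀ n < i, |(orb a b La ka c om n p).1 - c (om n)| ≤ 6 * C / (ka * La) ∧
      |(orb a b La ka c om n p).2| ≤ 3 * C / La := by
  set z := fun n => orb a b La ka c om n p with hz
  obtain ⟨m, hm, hX⟩ := (Finset.range i).exists_max_image (fun n => |(z n).1|)
    ⟨0, Finset.mem_range.2 hi⟩
  set X := |(z m).1| with hX'
  have h0 : z i = z 0 := hp
  have hx : ∀ n ≤ i, |(z n).1| ≤ X := fun n hn => by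
    rcases hn.eq_or_lt with rfl | hn
    · rw [h0]
      exact hX 0 (Finset.mem_range.2 hi)
    · exact hX n (Finset.mem_range.2 hn)
  have hy1 : ∀ n < i, La * |(z (n + 1)).2| ≤ 2 * X := fun n hn => by
    have e : La * (z (n + 1)).2 = (z (n + 1)).1 - a * (z n).1 := by
      simp only [hz, orb, stepA]
      ring
    have h1 := abs_sub ((z (n + 1)).1) (a * (z n).1)
    rw [← e, abs_mul, abs_of_pos hL, abs_mul] at h1
    nlinarith [hx (n + 1) hn, hx n hn.le, abs_nonneg (z n).1]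
  have hy : ∀ n ≤ i, La * |(z n).2| ≤ 2 * X := fun n hn => by
    rcases n with _ | n
    · obtain ⟨k, rfl⟩ := Nat.exists_eq_succ_of_ne_zero hi.ne'
      rw [← h0]
      exact hy1 k (Nat.lt_succ_self k)
    · exact hy1 n hn
  have hd : ∀ n < i, ka * La * |(z n).1 - c (om n)| ≤ 4 * X := fun n hn => by
    have e : sl (om n) * ka * ((z n).1 - c (om n)) = (z (n + 1)).2 - b * (z n).2 := by
      simp only [hz, orb, stepA]
      ring
    have h1 := abs_sub ((z (n + 1)).2) (b * (z n).2)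
    rw [← e, abs_mul, abs_mul, abs_sl, abs_of_pos hk, abs_mul, one_mul] at h1
    have h2 : |b| * |(z n).2| ≤ |(z n).2| := mul_le_of_le_one_left (abs_nonneg _) hb
    nlinarith [hy (n + 1) hn, hy n hn.le]
  have hXC : 3 * X ≤ 4 * C := by
    have h1 := hd m (Finset.mem_range.1 hm)
    have h2 := abs_sub_abs_le_abs_sub (z m).1 (c (om m))
    nlinarith [hc (om m), abs_nonneg ((z m).1 - c (om m))]
  have hC : 0 ≤ C := (abs_nonneg _).trans (hc true)
  refine fun n hn => ⟨?_, ?_⟩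
  · rw [le_div_iff₀ (by positivity)]
    nlinarith [hd n hn]
  · rw [le_div_iff₀ hL]
    nlinarith [hy n hn.le]

/-- the linear part -/
noncomputable def linW (a b La ka : ℝ) (om : ℕ → Bool) : ℕ → ℝ × ℝ →L[ℝ] ℝ × ℝ
  | 0 => ContinuousLinearMap.id ℝ _
  | n + 1 => (((a + La * (sl (om n) * ka)) • ContinuousLinearMap.fst ℝ ℝ ℝ +
      (La * b) • ContinuousLinearMap.snd ℝ ℝ ℝ).prod
      ((sl (om n) * ka) • ContinuousLinearMap.fst ℝ ℝ ℝ +
        b • ContinuousLinearMap.snd ℝ ℝ ℝ)).comp (linW a b La ka om n)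

theorem linW_eq (n : ℕ) (p : ℝ × ℝ) : linW a b La ka om n p = orb a b La ka 0 om n p := by
  induction n with
  | zero => rfl
  | succ n ih =>
    simp only [linW, orb, stepA, ← ih]
    ext <;> simp <;> ring

theorem orb_sub (n : ℕ) (p q : ℝ × ℝ) :
    orb a b La ka c om n p - orb a b La ka c om n q = linW a b La ka om n (p - q) := by
  induction n with
  | zero => rfl
  | succ n ih =>
    simp only [linW, orb, stepA, ContinuousLinearMap.comp_apply, ← ih]
    ext <;> simp <;> ring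

theorem det_two (M : ℝ × ℝ →L[ℝ] ℝ × ℝ) :
    M.det = (M (1, 0)).1 * (M (0, 1)).2 - (M (0, 1)).1 * (M (1, 0)).2 := by
  rw [ContinuousLinearMap.det, ← LinearMap.det_toMatrix (Module.Basis.finTwoProd ℝ),
    Matrix.det_fin_two]
  simp [LinearMap.toMatrix_apply]

theorem linW_inj (ha : |a| ≤ 1) (hb : |b| ≤ 1) (hL : 0 < La) (hk : 0 < ka) (h : 16 ≤ ka * La)
    (hi : 0 < i) : Function.Injective
      (ContinuousLinearMap.id ℝ (ℝ × ℝ) - linW a b La ka om i : ℝ × ℝ →L[ℝ] ℝ × ℝ) := by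
  refine (injective_iff_map_eq_zero _).2 fun p hp => ?_
  have h1 : orb a b La ka 0 om i p = p := by
    rw [← linW_eq]
    exact (sub_eq_zero.1 hp).symm
  obtain ⟨h2, h3⟩ := orb_bound (C := 0) ha hb hL hk h (by simp) hi h1 0 hi
  exact Prod.ext (by simpa [orb] using h2) (by simpa [orb] using h3)

theorem det_ne {M : ℝ × ℝ →L[ℝ] ℝ × ℝ} (h : Function.Injective M) : M.det ≠ 0 := fun h0 =>
  (LinearMap.det_eq_zero_iff_ker_ne_bot.1 h0) (LinearMap.ker_eq_bot.2 h)

theorem sg_det (ha : |a| ≤ 1) (hb : |b| ≤ 1) (hL : 0 < La) (hk : 0 < ka) (h : 16 ≤ ka * La)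
    (hi : 0 < i) : sg (ContinuousLinearMap.id ℝ (ℝ × ℝ) - linW a b La ka om i).det =
      -∏ n ∈ Finset.range i, sl (om n) := by
  set f : ℝ → ℝ := fun u =>
    (ContinuousLinearMap.id ℝ (ℝ × ℝ) - linW (u * a) (u * b) La ka om i).det with hf
  have hc : ∀ n p, Continuous fun u : ℝ => orb (u * a) (u * b) La ka 0 om n p := by
    intro n p
    induction n with
    | zero => exact continuous_const
    | succ n ih =>
      simp only [orb, stepA]
      fun_prop
  have hfc : Continuous f := by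
    simp only [hf, det_two, sub_apply, linW_eq]
    have h1 := hc i (1, 0)
    have h2 := hc i (0, 1)
    fun_prop
  have hne : ∀ u ∈ Icc (0 : ℝ) 1, f u ≠ 0 := fun u hu => by
    have hu' : |u| ≤ 1 := abs_le.2 ⟨by linarith [hu.1], hu.2⟩
    exact det_ne (linW_inj (by rw [abs_mul]; exact mul_le_one₀ hu' (abs_nonneg _) ha)
      (by rw [abs_mul]; exact mul_le_one₀ hu' (abs_nonneg _) hb) hL hk h hi)
  have h1 : sg (f 0) = sg (f 1) := by
    refine const_of_near (n := fun u => sg (f u)) fun u hu => mem_nhdsWithin_of_mem_nhds ?_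
    rcases lt_or_gt_of_ne (hne u hu) with h2 | h2
    · filter_upwards [hfc.continuousAt.eventually (gt_mem_nhds h2)] with v hv
      exact (sg_neg hv).trans (sg_neg h2).symm
    · filter_upwards [hfc.continuousAt.eventually (lt_mem_nhds h2)] with v hv
      exact (sg_pos hv).trans (sg_pos h2).symm
  have h2 : ∀ n p, (orb 0 0 La ka 0 om n p).1 =
      (ka * La) ^ n * ((∏ k ∈ Finset.range n, sl (om k) : ℤ) : ℝ) * p.1 := by
    intro n p
    induction n with
    | zero => simp [orb]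
    | succ n ih =>
      simp only [orb, stepA, ih, Finset.prod_range_succ]
      push_cast
      simp
      ring
  have h3 : (orb 0 0 La ka 0 om i (0, 1)).2 = 0 := by
    obtain ⟨k, rfl⟩ := Nat.exists_eq_succ_of_ne_zero hi.ne'
    simp [orb, stepA, h2]
  have h4 : f 0 = 1 - (ka * La) ^ i * ((∏ k ∈ Finset.range i, sl (om k) : ℤ) : ℝ) := by
    simp only [hf, det_two, sub_apply, linW_eq, zero_mul]
    simp [h2, h3]
  have h5 : 1 < (ka * La) ^ i := one_lt_pow₀ (by linarith) hi.ne'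
  have h6 : f 1 = (ContinuousLinearMap.id ℝ (ℝ × ℝ) - linW a b La ka om i).det := by simp [hf]
  rw [← h6, ← h1, h4]
  have h7 : ∏ k ∈ Finset.range i, sl (om k) = 1 ∨ ∏ k ∈ Finset.range i, sl (om k) = -1 :=
    Finset.prod_induction _ (fun z : ℤ => z = 1 ∨ z = -1)
      (by rintro _ _ (rfl | rfl) (rfl | rfl) <;> simp) (Or.inl rfl)
      fun k _ => by cases om k <;> simp [sl]
  rcases h7 with h7 | h7 <;> rw [h7]
  · exact sg_neg (by push_cast; linarith)
  · exact sg_pos (by push_cast; linarith)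

variable {P : ℝ × ℝ → ℝ × ℝ} {B : Bool → Set (ℝ × ℝ)}

theorem iter_eq (hP : ∀ l, ∀ p ∈ B l, P p = stepA a b La ka c l p) {p : ℝ × ℝ}
    (hp : ∀ n < i, P^[n] p ∈ B (om n) ∨ orb a b La ka c om n p ∈ B (om n)) :
    ∀ n ≤ i, P^[n] p = orb a b La ka c om n p := by
  intro n hn
  induction n with
  | zero => rfl
  | succ n ih =>
    have h1 := ih (Nat.le_of_succ_le hn)
    rw [Function.iterate_succ_apply', hP (om n) _ ((hp n hn).elim id fun h => h1 ▸ h), h1]
    rfl

theorem continuous_orb (n : ℕ) : Continuous (orb a b La ka c om n) := by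
  induction n with
  | zero => exact continuous_id
  | succ n ih =>
    show Continuous fun p => stepA a b La ka c (om n) (orb a b La ka c om n p)
    unfold stepA
    fun_prop

theorem isOpen_cyl (hB : ∀ l, IsOpen (B l)) (hP : ∀ l, ∀ p ∈ B l, P p = stepA a b La ka c l p) :
    IsOpen (cyl P B i om) := by
  have : cyl P B i om = ⋂ n ∈ Finset.range i, orb a b La ka c om n ⁻¹' B (om n) := by
    ext p
    simp only [cyl, mem_ofPred_eq, mem_iInter, Finset.mem_range, mem_preimage]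
    exact ⟨fun h n hn => iter_eq hP (fun k hk => Or.inl (h k hk)) n hn.le ▸ h n hn,
      fun h n hn => (iter_eq hP (fun k hk => Or.inr (h k hk)) n hn.le).symm ▸ h n hn⟩
  rw [this]
  exact isOpen_biInter_finset fun n _ => (hB _).preimage (continuous_orb n)

/-- the periodic point of a word and its index -/
theorem pdeg_cyl (ha : |a| ≤ 1) (hb : |b| ≤ 1) (hL : 0 < La) (hk : 0 < ka) (h : 16 ≤ ka * La)
    (hc : ∀ l, |c l| ≤ C) (hB : ∀ l, IsOpen (B l))
    (hP : ∀ l, ∀ p ∈ B l, P p = stepA a b La ka c l p)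
    (hin : ∀ l (p : ℝ × ℝ), |p.1 - c l| ≤ 6 * C / (ka * La) → |p.2| ≤ 3 * C / La → p ∈ B l)
    (hi : 0 < i) (om : ℕ → Bool) : Germ (cyl P B i om) (fun p => p - P^[i] p) ∧
      pdeg (cyl P B i om) (fun p => p - P^[i] p) = -∏ n ∈ Finset.range i, sl (om n) := by
  have h1 := linW_inj (om := om) ha hb hL hk h hi
  set M : ℝ × ℝ →L[ℝ] ℝ × ℝ := ContinuousLinearMap.id ℝ (ℝ × ℝ) - linW a b La ka om i with hM
  obtain ⟨q, hq⟩ := (LinearMap.injective_iff_surjective (f := (M : ℝ × ℝ →ₗ[ℝ] ℝ × ℝ))).1 h1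
    (orb a b La ka c om i 0)
  have h2 : orb a b La ka c om i q = q := by
    have h3 := orb_sub (a := a) (b := b) (La := La) (ka := ka) (c := c) (om := om) i q 0
    have h4 : q - linW a b La ka om i q = orb a b La ka c om i 0 := hq
    rw [sub_zero, ← h4] at h3
    rw [eq_add_of_sub_eq h3, add_sub_cancel]
  have h3 := orb_bound ha hb hL hk h hc hi h2
  have h4 : q ∈ cyl P B i om := fun n hn =>
    (iter_eq hP (fun k hk => Or.inr (hin _ _ (h3 k hk).1 (h3 k hk).2)) n hn.le).symm ▸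
      hin _ _ (h3 n hn).1 (h3 n hn).2
  have h5 : ∀ p ∈ cyl P B i om, p - P^[i] p = M (p - q) := fun p hp => by
    rw [iter_eq hP (fun k hk => Or.inl (hp k hk)) i le_rfl]
    show _ = p - q - linW a b La ka om i (p - q)
    rw [← orb_sub (c := c), h2]
    abel
  have hO := isOpen_cyl (i := i) (om := om) hB hP
  refine ⟨Germ.congr (f := fun p => M (p - q)) ⟨hO, by fun_prop, ?_⟩ h5, ?_⟩
  · refine SymA.cpt_congr (isCompact_singleton (x := q)) fun p => ⟨?_, fun hp => ?_⟩
    · rintro rfl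
      exact ⟨h4, by simp⟩
    · exact sub_eq_zero.1 (h1 (hp.2.trans (map_zero M).symm))
  · rw [pdeg_congr' h5, pdeg_affine hO h4 (det_ne h1), sg_det ha hb hL hk h hi]

end Vale.Agent.P220Z.Wc
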